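import Mathlib
import Vale.Agent.Lib.P058.Defs

namespace Vale.Agent.Lib.P058.H73

open Vale.Agent.Lib.P058

/-- the unit complex number with argument `2 π j / n` is an `n`-th root of unity -/
theorem exp_pow_eq_one (n j : ℕ) (hn : 0 < n) :
    Complex.exp (((2 * (Real.pi * j / n) : ℝ) : ℂ) * Complex.I) ^ n = 1 := by
  rw [← Complex.exp_nat_mul]
  have hn0 : (n : ℂ) ≠ 0 := by exact_mod_cast hn.ne'
  have h : (n : ℂ) * (((2 * (Real.pi * j / n) : ℝ) : ℂ) * Complex.I) =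
      (j : ℂ) * (2 * Real.pi * Complex.I) := by
    push_cast
    field_simp
  rw [h]
  exact Complex.exp_nat_mul_two_pi_mul_I j

/-- a complex number `exp (θ i)` with real `θ` has squared norm one -/
theorem normSq_exp (θ : ℝ) : Complex.normSq (Complex.exp ((θ : ℂ) * Complex.I)) = 1 := by
  rw [Complex.normSq_apply, Complex.exp_ofReal_mul_I_re, Complex.exp_ofReal_mul_I_im, ← sq, ← sq]
  exact Real.cos_sq_add_sin_sq θ

/-- the kite relation for two unit complex numbers, with the hypotheses in complex form -/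
theorem kite_rel (w1 w2 : ℂ) (t : ℝ) (h1 : w1 * (starRingEnd ℂ) w1 = 1)
    (h2 : w2 * (starRingEnd ℂ) w2 = 1)
    (hrel : (1 + (t : ℂ)) * (2 - w1 - (starRingEnd ℂ) w1) =
      (1 - (t : ℂ)) * (2 - w2 - (starRingEnd ℂ) w2)) :
    w1 * ((starRingEnd ℂ) w1 - w2 - 2 * (t : ℂ)) +
        w2 * (starRingEnd ℂ) ((starRingEnd ℂ) w1 - w2 - 2 * (t : ℂ)) =
      (1 + (t : ℂ)) * ((starRingEnd ℂ) w1 - w2 - 2 * (t : ℂ)) +
        (1 - (t : ℂ)) * (starRingEnd ℂ) ((starRingEnd ℂ) w1 - w2 - 2 * (t : ℂ)) := by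
  have hc : (starRingEnd ℂ) ((starRingEnd ℂ) w1 - w2 - 2 * (t : ℂ)) =
      w1 - (starRingEnd ℂ) w2 - 2 * (t : ℂ) := by
    rw [map_sub, map_sub, map_mul, Complex.conj_conj, Complex.conj_ofReal, map_ofNat]
  rw [hc]
  linear_combination h1 - h2 + hrel

/-- the four points of the cyclic kite inside a dihedral orbit -/
theorem kite_points (n j k : ℕ) (hj : 0 < j) (hk : 0 < k) (hjn : 2 * j ≤ n) (hkn : 2 * k ≤ n)
    (hjk : j + k < n) :
    ∃ (a b c d : ℂ) (t : ℝ), b ∈ Dorb n a ∧ c ∈ Dorb n a ∧ d ∈ Dorb n a ∧ a ≠ c ∧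
      Complex.normSq b = Complex.normSq a ∧ Complex.normSq c = Complex.normSq a ∧
      Complex.normSq d = Complex.normSq a ∧
      b + d = (1 + (t : ℂ)) * a + (1 - (t : ℂ)) * c ∧
      (1 + t) * Real.sin (Real.pi * j / n) ^ 2 = (1 - t) * Real.sin (Real.pi * k / n) ^ 2 := by
  have hn : 0 < n := by omega
  have hnR : (0 : ℝ) < (n : ℝ) := by exact_mod_cast hn
  have hjR : (0 : ℝ) < (j : ℝ) := by exact_mod_cast hj
  have hkR : (0 : ℝ) < (k : ℝ) := by exact_mod_cast hk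
  have hjnR : 2 * (j : ℝ) ≤ (n : ℝ) := by exact_mod_cast hjn
  have hknR : 2 * (k : ℝ) ≤ (n : ℝ) := by exact_mod_cast hkn
  have hjkR : (j : ℝ) + (k : ℝ) < (n : ℝ) := by exact_mod_cast hjk
  have hpi := Real.pi_pos
  have h1n := exp_pow_eq_one n j hn
  have h2n := exp_pow_eq_one n k hn
  obtain ⟨α, hα⟩ : ∃ α : ℝ, α = Real.pi * j / n := ⟨_, rfl⟩
  obtain ⟨β, hβ⟩ : ∃ β : ℝ, β = Real.pi * k / n := ⟨_, rfl⟩
  rw [← hα] at h1n
  rw [← hβ] at h2n
  rw [← hα, ← hβ]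
  have hα0 : 0 < α := by
    rw [hα]
    positivity
  have hβ0 : 0 < β := by
    rw [hβ]
    positivity
  have hα2 : 2 * α ≤ Real.pi := by
    have h1 : 2 * α = Real.pi * (2 * j) / n := by
      rw [hα]
      ring
    rw [h1, div_le_iff₀ hnR]
    exact mul_le_mul_of_nonneg_left hjnR hpi.le
  have hβ2 : 2 * β ≤ Real.pi := by
    have h1 : 2 * β = Real.pi * (2 * k) / n := by
      rw [hβ]
      ring
    rw [h1, div_le_iff₀ hnR]
    exact mul_le_mul_of_nonneg_left hknR hpi.le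
  have hαβ : α + β < Real.pi := by
    have h1 : α + β = Real.pi * (j + k) / n := by
      rw [hα, hβ]
      ring
    rw [h1, div_lt_iff₀ hnR]
    exact mul_lt_mul_of_pos_left hjkR hpi
  have hsα : 0 < Real.sin α := Real.sin_pos_of_pos_of_lt_pi hα0 (by linarith)
  have hsβ : 0 < Real.sin β := Real.sin_pos_of_pos_of_lt_pi hβ0 (by linarith)
  obtain ⟨S1, hS1⟩ : ∃ S1 : ℝ, S1 = Real.sin α ^ 2 := ⟨_, rfl⟩
  obtain ⟨S2, hS2⟩ : ∃ S2 : ℝ, S2 = Real.sin β ^ 2 := ⟨_, rfl⟩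
  rw [← hS1, ← hS2]
  have hS1pos : 0 < S1 := by
    rw [hS1]
    positivity
  have hS2pos : 0 < S2 := by
    rw [hS2]
    positivity
  obtain ⟨t, ht⟩ : ∃ t : ℝ, t = (S2 - S1) / (S1 + S2) := ⟨_, rfl⟩
  have hSS : S1 + S2 ≠ 0 := by linarith
  have hrel : (1 + t) * S1 = (1 - t) * S2 := by
    rw [ht]
    field_simp
    ring
  have hcos1 : Real.cos (2 * α) = 1 - 2 * S1 := by
    rw [Real.cos_two_mul, Real.cos_sq', hS1]
    ring
  have hcos2 : Real.cos (2 * β) = 1 - 2 * S2 := by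
    rw [Real.cos_two_mul, Real.cos_sq', hS2]
    ring
  obtain ⟨w1, hw1⟩ : ∃ w1 : ℂ, w1 = Complex.exp (((2 * α : ℝ) : ℂ) * Complex.I) := ⟨_, rfl⟩
  obtain ⟨w2, hw2⟩ : ∃ w2 : ℂ, w2 = Complex.exp (((2 * β : ℝ) : ℂ) * Complex.I) := ⟨_, rfl⟩
  rw [← hw1] at h1n
  rw [← hw2] at h2n
  have hre1 : w1.re = Real.cos (2 * α) := by
    rw [hw1]
    exact Complex.exp_ofReal_mul_I_re _
  have hre2 : w2.re = Real.cos (2 * β) := by
    rw [hw2]
    exact Complex.exp_ofReal_mul_I_re _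
  have him1 : w1.im = Real.sin (2 * α) := by
    rw [hw1]
    exact Complex.exp_ofReal_mul_I_im _
  have him2 : w2.im = Real.sin (2 * β) := by
    rw [hw2]
    exact Complex.exp_ofReal_mul_I_im _
  have hN1 : Complex.normSq w1 = 1 := by
    rw [hw1]
    exact normSq_exp _
  have hN2 : Complex.normSq w2 = 1 := by
    rw [hw2]
    exact normSq_exp _
  have h1c : w1 * (starRingEnd ℂ) w1 = 1 := by
    rw [Complex.mul_conj, hN1]
    simp
  have h2c : w2 * (starRingEnd ℂ) w2 = 1 := by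
    rw [Complex.mul_conj, hN2]
    simp
  have e1 : 2 - w1 - (starRingEnd ℂ) w1 = ((4 * S1 : ℝ) : ℂ) := by
    have h1 : 2 - w1 - (starRingEnd ℂ) w1 = 2 - (w1 + (starRingEnd ℂ) w1) := by ring
    rw [h1, Complex.add_conj, hre1, hcos1]
    push_cast
    ring
  have e2 : 2 - w2 - (starRingEnd ℂ) w2 = ((4 * S2 : ℝ) : ℂ) := by
    have h1 : 2 - w2 - (starRingEnd ℂ) w2 = 2 - (w2 + (starRingEnd ℂ) w2) := by ring
    rw [h1, Complex.add_conj, hre2, hcos2]
    push_cast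
    ring
  have hrelc : (1 + (t : ℂ)) * (2 - w1 - (starRingEnd ℂ) w1) =
      (1 - (t : ℂ)) * (2 - w2 - (starRingEnd ℂ) w2) := by
    rw [e1, e2]
    have h4 : (1 + t) * (4 * S1) = (1 - t) * (4 * S2) := by linarith
    exact_mod_cast h4
  have hsin1 : 0 ≤ Real.sin (2 * α) := Real.sin_nonneg_of_nonneg_of_le_pi (by linarith) hα2
  have hsin2 : 0 ≤ Real.sin (2 * β) := Real.sin_nonneg_of_nonneg_of_le_pi (by linarith) hβ2
  have hsinpos : 0 < Real.sin (2 * α) + Real.sin (2 * β) := by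
    rcases lt_or_ge (2 * α) Real.pi with h | h
    · have := Real.sin_pos_of_pos_of_lt_pi (by linarith : 0 < 2 * α) h
      linarith
    · have := Real.sin_pos_of_pos_of_lt_pi (by linarith : 0 < 2 * β) (by linarith)
      linarith
  obtain ⟨a, ha⟩ : ∃ a : ℂ, a = (starRingEnd ℂ) w1 - w2 - 2 * (t : ℂ) := ⟨_, rfl⟩
  have haim : a.im = -Real.sin (2 * α) - Real.sin (2 * β) := by
    rw [ha]
    simp [him1, him2]
  refine ⟨a, w1 * a, (starRingEnd ℂ) a, w2 * (starRingEnd ℂ) a, t, ⟨w1, h1n, Or.inl rfl⟩,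
    ⟨1, one_pow n, Or.inr (one_mul _).symm⟩, ⟨w2, h2n, Or.inr rfl⟩, ?_, ?_, ?_, ?_, ?_, hrel⟩
  · intro h
    have h1 := congrArg Complex.im h
    rw [Complex.conj_im] at h1
    linarith
  · rw [Complex.normSq_mul, hN1, one_mul]
  · exact Complex.normSq_conj a
  · rw [Complex.normSq_mul, hN2, one_mul, Complex.normSq_conj]
  · rw [ha]
    exact kite_rel w1 w2 t h1c h2c hrelc

end Vale.Agent.Lib.P058.H73
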